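import Vale.Agent.P031.Scales

namespace Vale.Agent.Results.P031.ErdosHallReduction

open Filter Topology Vale.Agent.P031

theorem result :
    (∀ c ε : ℝ, 1 < c → 0 < ε →
      (∃ᶠ x : ℝ in atTop, (V (c * x) : ℝ) < (c + ε) * V x) ∧
      (∃ᶠ x : ℝ in atTop, (c - ε) * V x < (V (c * x) : ℝ))) ∧
    (∀ a b : ℝ, 1 < a → 1 < b → Irrational (Real.log a / Real.log b) →
      ((∀ c : ℝ, 1 < c → Tendsto (fun x : ℝ => (V (c * x) : ℝ) / V x) atTop (𝓝 c)) ↔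
        ((∃ α : ℝ, Tendsto (fun x : ℝ => (V (a * x) : ℝ) / V x) atTop (𝓝 α)) ∧
         (∃ β : ℝ, Tendsto (fun x : ℝ => (V (b * x) : ℝ) / V x) atTop (𝓝 β))))) ∧
    ((∀ c : ℝ, 1 < c → Tendsto (fun x : ℝ => (V (c * x) : ℝ) / V x) atTop (𝓝 c)) ↔
      ((∃ α : ℝ, Tendsto (fun x : ℝ => (V (2 * x) : ℝ) / V x) atTop (𝓝 α)) ∧
       (∃ β : ℝ, Tendsto (fun x : ℝ => (V (3 * x) : ℝ) / V x) atTop (𝓝 β)))) :=
  ⟨fun c ε hc hε => ⟨frequently_lt c ε hc hε, frequently_gt c ε hc hε⟩,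
    fun a b ha hb hab => two_scales a b ha hb hab,
    two_scales 2 3 (by norm_num) (by norm_num) irrational_log_two_div_log_three⟩

end Vale.Agent.Results.P031.ErdosHallReduction
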